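import Vale.Agent.Lib.P324.Test

namespace Vale.Agent.Results.P324.CriticalPathCert

open Finset in
/-- Three machines, unit jobs, precedence given by a finite partial order `V`. If `V` has a
chain of `T` jobs, then a schedule of length `T` exists iff a consistent deadline vector
exists. -/
theorem result {V : Type*} [Fintype V] [DecidableEq V] [PartialOrder V] [DecidableLT V]
    (T : ℕ) (c : Fin T → V) (hc : StrictMono c) :
    (∃ τ : V → ℕ, StrictMono τ ∧ (∀ v, 1 ≤ τ v ∧ τ v ≤ T) ∧ ∀ t, #{v | τ v = t} ≤ 3) ↔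
      ∃ D : V → ℕ, StrictMono D ∧ (∀ v, D v ≤ T) ∧
        (∀ i s d, 3 * (d - s) < #{j | j ≠ i ∧ D j ≤ d ∧ (s ≤ #{k | c k < j} ∨ i < j)} →
          D i < s) ∧
        ∀ s d, #{j | s ≤ #{k | c k < j} ∧ D j ≤ d} ≤ 3 * (d - s) :=
  Vale.Agent.Lib.P324.cert_iff (lt := fun a b : V => a < b)
    (fun _ _ _ h1 h2 => lt_trans h1 h2) (fun _ _ h => hc h)

end Vale.Agent.Results.P324.CriticalPathCert
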