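import Vale.Agent.Lib.P324.Test

namespace Vale.Agent.Results.P324.CriticalPathTest

open Finset Classical Vale.Agent.Lib.P324 in
/-- Three machines, unit jobs, precedence DAG with arcs `E` on `Fin n`. If the DAG has a chain
of `T` jobs, then a schedule of length `T` exists iff the explicit deadline-tightening test
passes. -/
theorem result (n T : ℕ) (E : Fin n → Fin n → Prop) (c : Fin T → Fin n)
    (hc : ∀ a b : Fin T, a < b → Relation.TransGen E (c a) (c b)) :
    (∃ τ : Fin n → ℕ, (∀ u v, E u v → τ u < τ v) ∧ (∀ v, 1 ≤ τ v ∧ τ v ≤ T) ∧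
        ∀ t, #{v | τ v = t} ≤ 3) ↔
      tighten (Relation.TransGen E) T c (deadlines (Relation.TransGen E) T c) =
          deadlines (Relation.TransGen E) T c ∧
        ∀ s ≤ T, ∀ d ≤ T,
          #{j | s ≤ #{k | Relation.TransGen E (c k) j} ∧
              deadlines (Relation.TransGen E) T c j ≤ d} ≤ 3 * (d - s) := by
  refine Iff.trans ?_ (test_iff (lt := Relation.TransGen E) (T := T) (c := c)
    (fun a b e h1 h2 => h1.trans h2) hc)
  constructor
  · rintro ⟨τ, h1, h2, h3⟩
    refine ⟨τ, ?_, h2, h3⟩
    intro u v huv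
    induction huv with
    | single h => exact h1 _ _ h
    | tail _ h ih => exact lt_trans ih (h1 _ _ h)
  · rintro ⟨τ, h1, h2, h3⟩
    exact ⟨τ, fun u v h => h1 u v (Relation.TransGen.single h), h2, h3⟩

end Vale.Agent.Results.P324.CriticalPathTest
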