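import Vale.Agent.Lib.P324.Slack

namespace Vale.Agent.Results.P324.SlackChainTest

open Finset Classical Vale.Agent.Lib.P324 in
/-- Three machines, unit jobs, precedence DAG with arcs `E` on `Fin n`, and a chain `c` of
`T - k` jobs. A schedule of length `T` exists iff some sequence `c'` of at most `T` jobs
containing the chain passes the critical-path test for the DAG with the arcs of the chain
`c'` added. -/
theorem result (n T k : ℕ) (E : Fin n → Fin n → Prop) (c : Fin (T - k) → Fin n)
    (hc : ∀ a b : Fin (T - k), a < b → Relation.TransGen E (c a) (c b)) :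
    (∃ τ : Fin n → ℕ, (∀ u v, E u v → τ u < τ v) ∧ (∀ v, 1 ≤ τ v ∧ τ v ≤ T) ∧
        ∀ t, #{v | τ v = t} ≤ 3) ↔
      ∃ T' ≤ T, ∃ c' : Fin T' → Fin n, (∀ a, ∃ b, c' b = c a) ∧
        critTest (Relation.TransGen fun u v => E u v ∨ ∃ a b, a < b ∧ c' a = u ∧ c' b = v)
          T' c' :=
  slack_iff E T (T - k) c hc

end Vale.Agent.Results.P324.SlackChainTest
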